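import Vale.Agent.P031.Bdl.B2

namespace Vale.Agent.Results.P031.ErdosHall

open Filter Topology

/-- **Question 2 (Erdős–Hall 1976).** Let `V(x)` be the number of distinct values `v ≤ x` of
Euler's totient function. Then `V(cx)/V(x) → c` as `x → ∞`, for every fixed real `c > 0`. -/
theorem result (c : ℝ) (hc : 0 < c) :
    Tendsto (fun x : ℝ =>
        (Set.ncard {v : ℕ | (∃ n : ℕ, 1 ≤ n ∧ Nat.totient n = v) ∧ (v : ℝ) ≤ c * x} : ℝ) /
        (Set.ncard {v : ℕ | (∃ n : ℕ, 1 ≤ n ∧ Nat.totient n = v) ∧ (v : ℝ) ≤ x} : ℝ))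
      atTop (𝓝 c) :=
  Vale.Agent.P031.main c hc

end Vale.Agent.Results.P031.ErdosHall
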